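import Vale.Agent.P181.H983.TDefs

set_option autoImplicit false

/-!
# P181: column sums kill the contractions (block S4b)
-/

namespace Vale.Agent.P181.H968

open Vale.Agent.P181 Vale.Agent.P181.H280 Vale.Agent.P181.H270 Vale.Agent.P181.H73
  Vale.Agent.P181.H983 Finset MvPolynomial

/-- The columns at the end of the rows. -/
def col (a M j : ℕ) : Fin M × Fin a ↪ Fin a × Fin (j + M) where
  toFun p := (p.2, Fin.natAdd j p.1)
  inj' := by
    intro p p' h
    have h1 : p.2 = p'.2 := congrArg Prod.fst h
    have h2 : Fin.natAdd j p.1 = Fin.natAdd j p'.1 := congrArg Prod.snd h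
    exact Prod.ext (Fin.natAdd_inj j |>.1 h2) h1

lemma col_apply (a M j : ℕ) (c : Fin M) (i : Fin a) :
    col a M j (c, i) = (i, Fin.natAdd j c) := rfl

lemma colPerm_apply {κ : Type} [DecidableEq κ] {M a : ℕ} (ι : Fin M × Fin a ↪ κ)
    (τ : Fin M → Equiv.Perm (Fin a)) (c : Fin M) (i : Fin a) :
    colPerm ι τ (ι (c, i)) = ι (c, τ c i) := by
  rw [colPerm, Equiv.Perm.viaEmbedding_apply]
  rfl

lemma colPerm_fix {κ : Type} [DecidableEq κ] {M a : ℕ} (ι : Fin M × Fin a ↪ κ)
    (τ : Fin M → Equiv.Perm (Fin a)) (p : κ) (hp : ∀ c i, p ≠ ι (c, i)) :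
    colPerm ι τ p = p := by
  rw [colPerm, Equiv.Perm.viaEmbedding_apply_of_notMem]
  rintro ⟨⟨c, i⟩, h⟩
  exact hp c i h.symm

theorem s4b : S4b := by
  intro a M j F _ h P hP
  apply multilinear_zero_of_span ((altC (fun i => (X i : MvPolynomial (Fin a) ℂ)))^[M] F)
    (Set.range (fun c : Fin j → Fin a => ∏ s, (X (c s) : MvPolynomial (Fin a) ℂ))) _ P
  · intro i
    exact span_pow_eq _ _ (hP i)
  intro W hW
  choose u hu using hW
  have hW' : W = fun i => ∏ s, (X (u i s) : MvPolynomial (Fin a) ℂ) := by
    funext i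
    exact (hu i).symm
  rw [altC_iter_apply]
  have h1 := h (col a M j) (fun p => Fin.addCases (fun t => u p.1 t) (fun _ => p.1) p.2)
  rw [colSum] at h1
  rw [← h1]
  apply Finset.sum_congr rfl
  intro τ _
  congr 1
  rw [wv]
  congr 1
  funext p
  rw [cont, Fintype.prod_prod_type, Finset.prod_eq_single p]
  · rw [Fin.prod_univ_add, hW']
    congr 1
    · apply Finset.prod_congr rfl
      intro t _
      rw [if_pos rfl, colPerm_fix]
      · simp only [Fin.addCases_left]
      · intro c i hci
        rw [col_apply] at hci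
        have h2 := congrArg (fun z : Fin a × Fin (j + M) => (z.2 : ℕ)) hci
        simp only [Fin.val_castAdd, Fin.val_natAdd] at h2
        have := t.isLt
        omega
    · apply Finset.prod_congr rfl
      intro c _
      rw [if_pos rfl, ← col_apply a M j c p, colPerm_apply, col_apply]
      simp only [Fin.addCases_right]
  · intro p' _ hp'
    apply Finset.prod_eq_one
    intro l _
    rw [if_neg hp']
  · intro hp
    exact absurd (Finset.mem_univ _) hp

end Vale.Agent.P181.H968
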